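import Vale.Agent.P251CX.Sp

/-!
# The stable homotopy category

`IsSH T S`: the category `T` is the localization of orthogonal spectra (of compactly generated weak
Hausdorff spaces) at the `π_*`-isomorphisms, its tensor product is the derived smash product, its
distinguished triangles are the mapping cone sequences and `S` is the suspension spectrum functor.
-/

open CategoryTheory

namespace Vale.Agent.P251CX

open P251.St SHCat

/-- `T` is the stable homotopy category and `S` the suspension spectrum functor. -/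
structure IsSH (T : SHCat) (S : SuspData T) where
  /-- the localization functor on objects -/
  L : OSp → T.C
  /-- the localization functor on morphisms -/
  l : ∀ {X Y}, Mor X Y → Hom (L X) (L Y)
  l_id : ∀ X, l (idm X) = ident _
  l_comp : ∀ {X Y Z} (f : Mor X Y) (g : Mor Y Z), l (cmp f g) = comp (l f) (l g)
  loc : (⟨L, l, l_id, l_comp⟩ : OSp ⥤ T.C).IsLocalization piIso
  /-- the lax symmetric monoidal structure -/
  mu : ∀ {X Y Z}, Bim X Y Z → Hom (ten (L X) (L Y)) (L Z)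
  /-- the comparison of suspension spectra -/
  io : ∀ {A X}, Pm A X 0 → Hom (S.obj A) (L X)
  flat : ∀ X, ∃ Y f, IsFlat Y ∧ piIso Y X f
  mu_iso : ∀ X Y, ∃ Z, ∃ b : Bim X Y Z, IsUniv b ∧ (IsFlat Y → IsIso (mu b))
  mu_nat : ∀ X Y Z X' Y' Z' (b : Bim X Y Z) (b' : Bim X' Y' Z') f g h, Sq b b' f g h →
    CommSq (mu b) (tenHom (l f) (l g)) (l h) (mu b')
  /-- the levels `k + m + n` and `k + (m + n)` are the same -/
  mu_assoc : ∀ X Y Z X' Y' Z' (a : Bim X Y X') (b : Bim X' Z Z') (b' : Bim Y Z Y')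
    (d : Bim X Y' Z'), (∀ k m n (x : X.sp k) (y : Y.sp m) (z : Z.sp n),
      HEq (b.ev (a.ev x y) z) (d.ev x (b'.ev y z))) →
    CommSq (tenHom (mu a) (ident _)) (comp (assoc ..) (tenHom (ident _) (mu b'))) (mu b) (mu d)
  mu_comm : ∀ X Y Z (b : Bim X Y Z) (b' : Bim Y X Z),
    (∀ m n h, (∀ s t, ap h (Fin.append s t) = Fin.append t s) →
      ∀ (x : X.sp m) (y : Y.sp n), Z.ac h (b.ev x y) = b'.ev y x) → mu b = comp (symm ..) (mu b')
  mu_unit : ∀ X Y Z (b : Bim X Y Z) (u : Pm Pn Y 0) (g : Mor X Z),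
    (∀ n x, g.app n x = b.ev x (u.fn (.some ()))) →
    CommSq (tenHom (ident _) (comp S.unit (io u))) (comp (symm ..) (leftUnit _)) (mu b) (l g)
  io_iso : ∀ A, FC A → ∃ X, ∃ u : Pm A X 0, IsFree u ∧ IsFlat X ∧ IsIso (io u)
  io_nat : ∀ A B X Y (u : Pm A X 0) (v : Pm B Y 0) (a : Map A B) (f : Mor X Y), FC A → FC B →
    (∀ x, v.fn (a.toFun x) = f.app 0 (u.fn x)) → CommSq (S.map a) (io u) (io v) (l f)
  io_mul : ∀ A B X Y Z (u : Pm A X 0) (v : Pm B Y 0) (w : Pm (A.prod B) Z 0) (b : Bim X Y Z),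
    FC A → FC B → (∀ x y, w.fn (smash x y) = b.ev (u.fn x) (v.fn y)) →
    CommSq (S.mul A B) (tenHom (io u) (io v)) (io w) (mu b)
  /-- every `f` has a mapping cone `Z = Y ∪ (X ∧ [0, ∞])` with the collapse `d : Z → Z' = X ∧ S^1`
  of `Y` (`(0, ∞)` is identified with `ℝ` by the logarithm), and its triangle is distinguished -/
  cone : ∀ X Y (f : Mor X Y), ∃ Z Z' X' Y', ∃ (u : Pm Hh X' 0) (v : Pm Rr Y' 0) (b : Bim X X' Z)
    (b' : Bim X Y' Z') (j : Mor Y Z) (d : Mor Z Z'), IsFree u ∧ IsFree v ∧ IsUniv b' ∧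
    (∀ n x, j.app n (f.app n x) = b.ev x (u.fn (.some (0 : NNReal)))) ∧
    (∀ H (i : Mor Y H) (k : Bim X X' H),
      (∀ n x, i.app n (f.app n x) = k.ev x (u.fn (.some (0 : NNReal)))) →
      ∃! w, cmp j w = i ∧ Sq b k (idm X) (idm X') w) ∧
    (∀ n y, d.app n (j.app n y) = Z'.bp n) ∧
    (∀ n x (t : NNReal), 0 < t →
      d.app n (b.ev x (u.fn (.some t))) = b'.ev x (v.fn (.some (Real.log t)))) ∧
    ∃ δ, comp δ (comp (tenHom (ident _) (io v)) (mu b')) = l d ∧
      Dist (l f) (l j) (comp δ (comp (tenHom (ident _) S.line) (tenSus _)))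

end Vale.Agent.P251CX
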