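import Vale.Agent.P251CX.Br
import Vale.Agent.P251CZ.Top

/-!
# The stable homotopy category of orthogonal spectra exists
-/

namespace Vale.Agent.P251CX

open P251.St

/-- **The stable homotopy category of orthogonal spectra, with its suspension spectrum functor.** -/
theorem exists_isSH : ∃ (T : SHCat) (S : Susp T), Nonempty (IsSH T S.toSuspData) := by
  obtain ⟨T, S, ⟨I⟩⟩ := P251CZ.exists_isSH
  exact ⟨T, S, ⟨isSH_of I⟩⟩

end Vale.Agent.P251CX
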