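import Vale.Agent.P251CX.Imp

/-!
# Orthogonal spectra

Orthogonal spectra of compactly generated weak Hausdorff spaces, their morphisms, the
`π_*`-isomorphisms, bimorphisms, smash products, flat spectra and suspension spectra.
-/

open CategoryTheory OnePoint Matrix

namespace Vale.Agent.P251CX

open P251.St

/-- `A : ℝ^m → ℝ^n` is a linear isometry and `v` is orthogonal to its image. -/
def IsEmb {m n : ℕ} (p : Matrix (Fin n) (Fin m) ℝ × (Fin n → ℝ)) : Prop :=
  p.1ᵀ * p.1 = 1 ∧ p.1ᵀ *ᵥ p.2 = fun _ => 0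

/-- The pairs `(A, v)`; the one-point compactification is the Thom space of the orthogonal
complement bundle over the space of isometries. -/
abbrev Emb (m n : ℕ) := Subtype (@IsEmb m n)

/-- The affine map `s ↦ A s + v` (it determines the pair). -/
def ap {m n} (f : Emb m n) (s : Fin m → ℝ) (i : Fin n) := (f.1.1 *ᵥ s) i + f.1.2 i

/-- An orthogonal spectrum: a based continuous functor from the Thom spaces to based compactly
generated weak Hausdorff spaces (the point at infinity of the Thom space acts by the constant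
map). -/
structure OSp where
  /-- the levels -/
  sp : ℕ → Type
  [tp : ∀ n, TopologicalSpace (sp n)]
  cg : ∀ n, CompactlyGeneratedSpace (sp n)
  wh : ∀ n (A : Type) [TopologicalSpace A] [CompactSpace A] [T2Space A] (g : A → sp n),
    Continuous g → IsClosed (Set.range g)
  /-- the base points -/
  bp : ∀ n, sp n
  /-- the action -/
  ac : ∀ {m n}, Emb m n → sp m → sp n
  cont : ∀ m n, Continuous fun p : OnePoint (Emb m n) × sp m => p.1.elim (bp n) (ac · p.2)
  ac_bp : ∀ m n f, ac f (bp m) = bp n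
  ac_id : ∀ n (f : Emb n n), (∀ s, ap f s = s) → ∀ x, ac f x = x
  ac_comp : ∀ k m n (f : Emb k m) (g : Emb m n) h, (∀ s, ap h s = ap g (ap f s)) →
    ∀ x, ac h x = ac g (ac f x)

attribute [instance] OSp.tp

variable {X Y Z X' Y' Z' : OSp}

/-- Based continuous maps of the levels which commute with the action. -/
def IsMor (X Y : OSp) (f : ∀ n, X.sp n → Y.sp n) : Prop :=
  ∀ n, Continuous (f n) ∧ f n (X.bp n) = Y.bp n ∧ ∀ m g x, f n (X.ac g x) = Y.ac g (f m x)

/-- Morphisms of orthogonal spectra. -/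
structure Mor (X Y : OSp) where
  /-- the components -/
  app : ∀ n, X.sp n → Y.sp n
  ok : IsMor X Y app

theorem isMor_id (X) : IsMor X X fun _ x => x := fun _ => ⟨continuous_id, rfl, fun _ _ _ => rfl⟩

theorem isMor_comp (f : Mor X Y) (g : Mor Y Z) : IsMor X Z fun n x => g.app n (f.app n x) :=
  fun n => by simp [f.ok n, g.ok n, (g.ok n).1.comp' (f.ok n).1]

/-- The identity. -/
def idm (X) : Mor X X := ⟨_, isMor_id X⟩

/-- The composition. -/
def cmp (f : Mor X Y) (g : Mor Y Z) : Mor X Z := ⟨_, isMor_comp f g⟩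

instance catO : Category OSp where
  Hom := Mor
  id := idm
  comp := cmp
  id_comp := .refl
  comp_id := .refl
  assoc f g h := .refl (cmp f (cmp g h))

/-- Based maps `A⁺ → X_n`. -/
structure Pm (A : Space) (X : OSp) (n : ℕ) where
  /-- the map -/
  fn : A.Pt → X.sp n
  cont : Continuous fn
  based : fn ∞ = X.bp n

/-- Based maps `S^j → X_n`. -/
inductive El (X : OSp)
  | of {j n} (g : Pm (Rn j) X n)

/-- Based maps `S^j → X_n` are related if they are based homotopic or if the second is the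
suspension `S^1 ∧ S^j → S^1 ∧ X_n → X_{n+1}` of the first. The quotient is the disjoint union of the
homotopy groups `π_k X = colim_n π_{k+n} X_n`, `k = j - n ∈ ℤ`. -/
inductive PiRel (X : OSp) : El X → El X → Prop
  | htpy {j n} (h : ℝ → Pm (Rn j) X n) : Continuous (Function.uncurry fun t => (h t).fn) →
      PiRel X (.of (h 0)) (.of (h 1))
  | stab {j n} (f : Pm (Rn j) X n) (g : Pm (Rn j.succ) X n.succ) :
      (∀ t (h : Emb n n.succ), (∀ s, ap h s = vecCons t s) → ∀ y : Fin j → ℝ,
        g.fn (.some (vecCons t y)) = X.ac h (f.fn (.some y))) → PiRel X (.of f) (.of g)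

/-- The `π_*`-isomorphisms. -/
def piIso (X Y : OSp) (f : Mor X Y) : Prop := ∃ h : Quot (PiRel X) → Quot (PiRel Y),
  h.Bijective ∧ ∀ j n (u : Pm (Rn j) X n) (v : Pm (Rn j) Y n), (∀ x, v.fn x = f.app n (u.fn x)) →
    h (.mk _ (.of u)) = .mk _ (.of v)

/-- Bimorphisms: based maps `X_m ∧ Y_n → Z_{m+n}` (continuous for the compactly generated product),
natural for direct sums. -/
structure Bim (X Y Z : OSp) where
  /-- the maps -/
  ev : ∀ {m n}, X.sp m → Y.sp n → Z.sp (m + n)
  cont : ∀ m n, @Continuous _ _ (.compactlyGenerated.{0} (X.sp m × Y.sp n)) _ (Function.uncurry ev)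
  bp_left : ∀ m n y, ev (X.bp m) y = Z.bp (m + n)
  bp_right : ∀ m n x, ev x (Y.bp n) = Z.bp (m + n)
  nat : ∀ m n i j (f : Emb m i) (g : Emb n j) h,
    (∀ s t, ap h (Fin.append s t) = Fin.append (ap f s) (ap g t)) →
    ∀ x y, ev (X.ac f x) (Y.ac g y) = Z.ac h (ev x y)

/-- `h (x ∧ y) = f x ∧ g y`. -/
def Sq (b : Bim X Y Z) (b' : Bim X' Y' Z') (f : Mor X X') (g : Mor Y Y') (h : Mor Z Z') : Prop :=
  ∀ m n x y, h.app _ (b.ev x y) = b'.ev (f.app m x) (g.app n y)

/-- `b` is universal: `Z` is the smash product `X ∧ Y`. -/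
def IsUniv (b : Bim X Y Z) : Prop := ∀ Z' (b' : Bim X Y Z'), ∃! h, Sq b b' (idm X) (idm Y) h

/-- `- ∧ Y` preserves `π_*`-isomorphisms. -/
def IsFlat (Y : OSp) : Prop := ∀ X X' Z Z' (b : Bim X Y Z) (b' : Bim X' Y Z') f h,
  IsUniv b → IsUniv b' → Sq b b' f (idm Y) h → piIso _ _ f → piIso _ _ h

/-- `u` is universal: `X` is the suspension spectrum `Σ^∞ A⁺`. -/
def IsFree {A} (u : Pm A X 0) : Prop :=
  ∀ Y (v : Pm A Y 0), ∃! h : Mor X Y, ∀ x, h.app 0 (u.fn x) = v.fn x

end Vale.Agent.P251CX
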