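import Vale.Agent.P251CX.Sp
import Vale.Agent.P251C.Defs
import Mathlib.CategoryTheory.Localization.Equivalence

/-!
# The dictionary between `P251CX/Sp` and `P251C/Defs`
-/

open CategoryTheory OnePoint Matrix

namespace Vale.Agent.P251CX

open P251.St

/-- the spectrum in the sense of `P251C/Defs` -/
def o (X : OSp) : P251C.OSp where
  sp := X.sp
  top := X.tp
  cg := X.cg
  wh n K _ _ _ g := X.wh n K g g.continuous
  pt := X.bp
  act f x := f.elim (X.bp _) fun e => X.ac e x
  cont := X.cont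
  act_infty _ _ _ := rfl
  act_pt m n f := by
    induction f using OnePoint.rec with
    | infty => rfl
    | coe e => exact X.ac_bp m n e
  act_id := X.ac_id
  act_comp := X.ac_comp

theorem act_eq (Y : P251C.OSp) {m n : ℕ} (f : OnePoint (P251C.Emb m n)) (x : Y.sp m) :
    f.elim (Y.pt n) (fun e => Y.act (.some e) x) = Y.act f x := by
  induction f using OnePoint.rec with
  | infty => exact (Y.act_infty m n x).symm
  | coe e => rfl

/-- the spectrum in the sense of `P251CX/Sp` -/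
def nw (Y : P251C.OSp) : OSp where
  sp := Y.sp
  tp := Y.top
  cg := Y.cg
  wh n K _ _ _ g hg := Y.wh n K ⟨g, hg⟩
  bp := Y.pt
  ac e x := Y.act (.some e) x
  cont m n := (Y.cont m n).congr fun p => (act_eq Y p.1 p.2).symm
  ac_bp m n _ := Y.act_pt m n _
  ac_id := Y.act_id
  ac_comp := Y.act_comp

theorem o_surj (Y : P251C.OSp) : ∃ X, o X = Y := by
  refine ⟨nw Y, ?_⟩
  have h : (fun {m n : ℕ} (f : OnePoint (P251C.Emb m n)) (x : Y.sp m) =>
      f.elim (Y.pt n) fun e => Y.act (.some e) x) = @Y.act := by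
    funext m n f x
    exact act_eq Y f x
  cases Y
  unfold o nw
  congr

variable {X Y Z X' Y' Z' : OSp} {A : Space} {n : ℕ}

/-- morphisms -/
def mo (f : Mor X Y) : o X ⟶ o Y :=
  ⟨fun n => ⟨f.app n, (f.ok n).1⟩, fun n => (f.ok n).2.1, fun m n e x => (f.ok n).2.2 m e x⟩

/-- morphisms, back -/
def mn (g : o X ⟶ o Y) : Mor X Y :=
  ⟨fun n => g.app n, fun n => ⟨(g.app n).continuous, g.pt n, fun m e x => g.nat m n e x⟩⟩

/-- based maps -/
def po (u : Pm A X n) : P251C.Pm A (o X) n := ⟨⟨u.fn, u.cont⟩, u.based⟩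

/-- based maps, back -/
def pn (u : P251C.Pm A (o X) n) : Pm A X n := ⟨u.1, u.1.continuous, u.2⟩

theorem cont_k {P : Type} [TopologicalSpace P] (K : Type) [TopologicalSpace K] [CompactSpace K]
    [T2Space K] (g : C(K, P)) :
    @Continuous _ _ _ (TopologicalSpace.compactlyGenerated.{0} P) g :=
  @Continuous.comp _ _ _ _ _ (TopologicalSpace.compactlyGenerated.{0} P)
    (fun k => (⟨⟨CompHaus.of K, g⟩, k⟩ : Σ i : (S : CompHaus.{0}) × C(S, P), i.fst)) _
    continuous_coinduced_rng (continuous_sigmaMk (σ := fun i : (S : CompHaus.{0}) × C(S, P) => i.fst)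
      (i := ⟨CompHaus.of K, g⟩))

/-- bimorphisms -/
def bo (b : Bim X Y Z) : P251C.Bim (o X) (o Y) (o Z) where
  ev := b.ev
  cont m n K _ _ _ x y :=
    @Continuous.comp _ _ _ _ (TopologicalSpace.compactlyGenerated.{0} (X.sp m × Y.sp n)) _ _ _
      (b.cont m n) (cont_k (P := X.sp m × Y.sp n) K (ContinuousMap.prodMk x y))
  pt_left := b.bp_left
  pt_right := b.bp_right
  nat := b.nat

/-- bimorphisms, back -/
def bn (b : P251C.Bim (o X) (o Y) (o Z)) : Bim X Y Z where
  ev := b.ev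
  cont m n := continuous_from_compactlyGenerated _ fun S g =>
    b.cont m n S ⟨fun s => (g s).1, g.continuous.fst⟩ ⟨fun s => (g s).2, g.continuous.snd⟩
  bp_left := b.pt_left
  bp_right := b.pt_right
  nat := b.nat

/-- the comparison functor -/
def F : OSp ⥤ P251C.OSp where
  obj := o
  map := mo
  map_id _ := rfl
  map_comp _ _ := rfl

instance : F.IsEquivalence where
  faithful := ⟨fun h => congrArg mn h⟩
  full := ⟨fun g => ⟨mn g, rfl⟩⟩
  essSurj := ⟨fun Y => by
    obtain ⟨X, rfl⟩ := o_surj Y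
    exact ⟨X, ⟨Iso.refl _⟩⟩⟩

theorem pm_ext {u v : Pm A X n} (h : ∀ x, u.fn x = v.fn x) : u = v := by
  cases u
  cases v
  congr
  exact funext h

/-- the homotopy groups -/
def qe (X : OSp) : Quot (PiRel X) ≃ Quot (P251C.PiRel (o X)) where
  toFun := Quot.lift (fun | .of (j := j) (n := n) u => Quot.mk _ ⟨j, n, po u⟩) (by
    rintro _ _ (⟨h, hc⟩ | ⟨f, g, h⟩)
    · refine Quot.sound (.htpy _ _ ⟨⟨⟨⟨fun p => (h p.1).fn p.2, ?_⟩, fun _ => rfl, fun _ => rfl⟩,
        ?_⟩⟩)
      · exact hc.comp ((continuous_subtype_val.comp continuous_fst).prodMk continuous_snd)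
      · rintro t _ rfl
        exact (h t).based.trans (h 0).based.symm
    · exact Quot.sound (.stab _ _ h))
  invFun := Quot.lift (fun p => Quot.mk _ (.of (pn p.2.2))) (by
    rintro _ _ (⟨f, g, ⟨H⟩⟩ | ⟨f, g, h⟩)
    · let h : ℝ → Pm _ X _ := fun t =>
        ⟨fun x => H (Set.projIcc 0 1 zero_le_one t, x),
          H.continuous.comp (continuous_const.prodMk continuous_id),
          (H.eq_fst _ rfl).trans f.2⟩
      have h0 : h 0 = pn f := pm_ext fun x => by
        change H (Set.projIcc 0 1 zero_le_one 0, x) = _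
        rw [Set.projIcc_left]
        exact H.apply_zero x
      have h1 : h 1 = pn g := pm_ext fun x => by
        change H (Set.projIcc 0 1 zero_le_one 1, x) = _
        rw [Set.projIcc_right]
        exact H.apply_one x
      change Quot.mk _ (El.of (pn f)) = Quot.mk _ (El.of (pn g))
      rw [← h0, ← h1]
      exact Quot.sound (.htpy h (H.continuous.comp
        ((continuous_projIcc.comp continuous_fst).prodMk continuous_snd)))
    · exact Quot.sound (.stab _ _ h))
  left_inv := by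
    rintro ⟨⟨u⟩⟩
    rfl
  right_inv := by
    rintro ⟨⟨j, n, u⟩⟩
    rfl

theorem piIso_iff (f : Mor X Y) : piIso X Y f ↔ P251C.piIso (mo f) := by
  constructor
  · rintro ⟨h, hb, hh⟩
    exact ⟨(qe X).symm.trans ((Equiv.ofBijective h hb).trans (qe Y)), fun j n g g' hg =>
      congrArg (qe Y) (hh j n (pn g) (pn g') hg)⟩
  · rintro ⟨e, he⟩
    exact ⟨(qe X).trans (e.trans (qe Y).symm), Equiv.bijective _, fun j n u v hu =>
      congrArg (qe Y).symm (he j n (po u) (po v) hu)⟩

theorem isUniv_iff (b : Bim X Y Z) : IsUniv b ↔ P251C.IsUniv (bo b) := by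
  constructor
  · intro H W c
    obtain ⟨W, rfl⟩ := o_surj W
    obtain ⟨h, hh, hu⟩ := H W (bn c)
    exact ⟨mo h, hh, fun h' hh' => congrArg mo (hu (mn h') hh')⟩
  · intro H W c
    obtain ⟨h, hh, hu⟩ := H (o W) (bo c)
    exact ⟨mn h, hh, fun h' hh' => congrArg mn (hu (mo h') hh')⟩

theorem isFlat_iff (Y : OSp) : IsFlat Y ↔ P251C.IsFlat (o Y) := by
  constructor
  · intro H X X' Z Z' b b' f h hb hb' hs hf
    obtain ⟨X, rfl⟩ := o_surj X
    obtain ⟨X', rfl⟩ := o_surj X'
    obtain ⟨Z, rfl⟩ := o_surj Z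
    obtain ⟨Z', rfl⟩ := o_surj Z'
    exact (piIso_iff (mn h)).1 (H X X' Z Z' (bn b) (bn b') (mn f) (mn h)
      ((isUniv_iff _).2 hb) ((isUniv_iff _).2 hb') hs ((piIso_iff (mn f)).2 hf))
  · intro H X X' Z Z' b b' f h hb hb' hs hf
    exact (piIso_iff h).2 (H (bo b) (bo b') (mo f) (mo h)
      ((isUniv_iff _).1 hb) ((isUniv_iff _).1 hb') hs ((piIso_iff f).1 hf))

theorem isFree_iff (u : Pm A X 0) : IsFree u ↔ P251C.IsFree (po u) := by
  constructor
  · intro H W v
    obtain ⟨W, rfl⟩ := o_surj W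
    obtain ⟨h, hh, hu⟩ := H W (pn v)
    exact ⟨mo h, hh, fun h' hh' => congrArg mo (hu (mn h') hh')⟩
  · intro H W v
    obtain ⟨h, hh, hu⟩ := H (o W) (po v)
    exact ⟨mn h, hh, fun h' hh' => congrArg mn (hu (mo h') hh')⟩

theorem isLocalization {D : Type*} [Category D] (L : P251C.OSp ⥤ D)
    [L.IsLocalization P251C.piIso] : (F ⋙ L).IsLocalization piIso := by
  refine Functor.IsLocalization.of_equivalence_source L P251C.piIso (F ⋙ L) piIso
    F.asEquivalence.symm ?_ (fun X Y f hf => ?_)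
    ((Functor.associator _ _ _).symm ≪≫ Functor.isoWhiskerRight F.asEquivalence.counitIso L ≪≫
      L.leftUnitor)
  · intro X Y f hf
    obtain ⟨X, rfl⟩ := o_surj X
    obtain ⟨Y, rfl⟩ := o_surj Y
    exact ⟨X, Y, mn f, (piIso_iff (mn f)).2 hf,
      ⟨Arrow.isoOfNatIso F.asEquivalence.unitIso (Arrow.mk (mn f : X ⟶ Y))⟩⟩
  · exact Localization.inverts L P251C.piIso _ ((piIso_iff f).1 hf)

theorem ac_heq {p q : ℕ} (h : p = q) (e : Emb p q) (he : ∀ s, ap e s = s ∘ Fin.cast h.symm)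
    {x : X.sp p} {y : X.sp q} (hxy : HEq x y) : X.ac e x = y := by
  subst h
  exact (X.ac_id p e he x).trans (eq_of_heq hxy)

theorem ex_append {m n : ℕ} (v : Fin (m + n) → ℝ) : ∃ r t, v = Fin.append r t :=
  ⟨_, _, Fin.append_castAdd_natAdd.symm⟩

theorem ac_assoc {l m n : ℕ} (e : Emb (l + m + n) (l + (m + n)))
    (he : ∀ r s t, ap e (Fin.append (Fin.append r s) t) = Fin.append r (Fin.append s t))
    {x : X.sp (l + m + n)} {y : X.sp (l + (m + n))} (hxy : HEq x y) : X.ac e x = y := by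
  refine ac_heq (Nat.add_assoc l m n) e (fun v => ?_) hxy
  obtain ⟨w, t, rfl⟩ := ex_append v
  obtain ⟨r, s, rfl⟩ := ex_append w
  rw [he, Fin.append_assoc]
  rfl

end Vale.Agent.P251CX
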