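import Vale.Agent.P251CX.St
import Vale.Agent.P251CX.Dic
import Vale.Agent.P251.St.OfFunctor

/-!
# From `P251C.IsSH` to `P251CX.IsSH`
-/

open CategoryTheory MonoidalCategory

namespace Vale.Agent.P251CX

open P251.St SHCat

/-- The stable homotopy category in the sense of `P251C/Defs` is one in the sense of
`P251CX/St`. -/
noncomputable def isSH_of {T : SHCat} {S : Susp T} (I : P251C.IsSH T S) :
    IsSH T S.toSuspData where
  L X := I.L.obj (o X)
  l f := I.L.map (mo f)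
  l_id X := I.L.map_id (o X)
  l_comp f g := I.L.map_comp (mo f) (mo g)
  loc := have := I.loc; isLocalization I.L
  mu b := I.mu (bo b)
  io u := I.io (po u)
  flat X := by
    obtain ⟨Y, f, hY, hf⟩ := I.ex_flat (o X)
    obtain ⟨Y, rfl⟩ := o_surj Y
    exact ⟨Y, mn f, (isFlat_iff Y).2 hY, (piIso_iff (mn f)).2 hf⟩
  mu_iso X Y := by
    obtain ⟨Z, b, hb⟩ := I.ex_univ (o X) (o Y)
    obtain ⟨Z, rfl⟩ := o_surj Z
    exact ⟨Z, bn b, (isUniv_iff (bn b)).2 hb, fun h => I.mu_iso b hb ((isFlat_iff Y).1 h)⟩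
  mu_nat _ _ _ _ _ _ b b' f g h hs := ⟨I.mu_nat (bo b) (bo b') (mo f) (mo g) (mo h) hs⟩
  mu_assoc _ _ _ _ _ _ a b b' d h := ⟨by
    have := I.mu_assoc (bo a) (bo b) (bo b') (bo d)
      fun l m n e he x y z => ac_assoc e he (h l m n x y z)
    simpa only [tensorHom_id, id_tensorHom, Category.assoc] using this⟩
  mu_comm _ _ _ b b' h := I.mu_comm (bo b) (bo b') h
  mu_unit _ _ _ b u g h := ⟨by
    have := I.mu_unit (bo b) (po u) (mo g) h
    simpa only [id_tensorHom, braiding_leftUnitor] using this⟩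
  io_iso A hA := by
    obtain ⟨X, u, hu⟩ := I.ex_free A
    obtain ⟨X, rfl⟩ := o_surj X
    exact ⟨X, pn u, (isFree_iff (pn u)).2 hu, (isFlat_iff X).2 (I.io_iso u hA hu).1,
      (I.io_iso u hA hu).2⟩
  io_nat _ _ _ _ u v a f hA hB h := ⟨I.io_nat (po u) (po v) a (mo f) hA hB h⟩
  io_mul _ _ _ _ _ u v w b hA hB h := ⟨I.io_mul (po u) (po v) (po w) (bo b) hA hB h⟩
  cone X Y f := by
    obtain ⟨C, D, H, R, j, d, u, r, k, s, h⟩ := I.ex_cone (mo f)
    obtain ⟨C, rfl⟩ := o_surj C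
    obtain ⟨D, rfl⟩ := o_surj D
    obtain ⟨H, rfl⟩ := o_surj H
    obtain ⟨R, rfl⟩ := o_surj R
    obtain ⟨hR, hr⟩ := I.io_iso r fcRr h.free.2.1
    have hs := I.mu_iso s h.free.2.2 hR
    have e : (I.L.map d ≫ inv (I.L.obj (o X) ◁ I.io r ≫ I.mu s)) ≫
        I.L.obj (o X) ◁ I.io r ≫ I.mu s = I.L.map d := by
      rw [Category.assoc, IsIso.inv_hom_id, Category.comp_id]
    refine ⟨C, D, H, R, pn u, pn r, bn k, bn s, mn j, mn d, (isFree_iff (pn u)).2 h.free.1,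
      (isFree_iff (pn r)).2 h.free.2.1, (isUniv_iff (bn s)).2 h.free.2.2,
      fun n x => (h.glue n x).symm, fun W i k' hk => ?_, h.collapse, h.interior,
      I.L.map d ≫ inv (I.L.obj (o X) ◁ I.io r ≫ I.mu s), ?_, ?_⟩
    · obtain ⟨w, hw, hu⟩ := h.pushout (o W) (mo i) (bo k') fun n x => (hk n x).symm
      exact ⟨mn w, ⟨congrArg mn hw.1, hw.2⟩,
        fun w' hw' => congrArg mn (hu (mo w') ⟨congrArg mo hw'.1, hw'.2⟩)⟩
    · simp only [id_tensorHom]
      exact e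
    · simp only [id_tensorHom]
      exact I.cone (mo f) j d u r k s _ h e

end Vale.Agent.P251CX
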