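import Vale.Agent.P251.St.Base
import Mathlib.Topology.Compactness.CompactlyGeneratedSpace
import Mathlib.Topology.Instances.Matrix
import Mathlib.CategoryTheory.Localization.Predicate

/-!
# The imports of the statement file `P251CX/St`
-/
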